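import Vale.Agent.P181.Transfer

namespace Vale.Agent.Results.P181.LargeInnerDegree

open Vale.Agent.P181

/-- Foulkes' conjecture, with the canonical map, for all `b ≥ (a - 1) ^ 2` and all
dimensions. -/
theorem result :
    ∀ a b n : ℕ, (a - 1) ^ 2 ≤ b →
      ∃ Ψ : ((Fin a → Fin b → Fin n) → ℂ) →ₗ[ℂ] (Fin b → Fin a → Fin n) → ℂ,
        (∀ f u, Ψ f u = ∑ σ : Fin b → Equiv.Perm (Fin a), f fun i l => u l (σ l i)) ∧
        (∀ f, IsSymTensor f → IsSymTensor (Ψ f)) ∧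
        (∀ f f', IsSymTensor f → IsSymTensor f' → Ψ f = Ψ f' → f = f') ∧
        ∀ (g : Matrix (Fin n) (Fin n) ℂ) f, Ψ (tensorAct g f) = tensorAct g (Ψ f) := by
  intro a b n hb
  refine ⟨foulkesMap a b n, fun f u => rfl, fun f hf => foulkesMap_isSymTensor hf,
    fun f f' hf hf' he => ?_, fun g f => foulkesMap_tensorAct g f⟩
  have hsub : IsSymTensor (f - f') :=
    ⟨fun σ t => by simp [hf.1 σ t, hf'.1 σ t], fun ρ t => by simp [hf.2 ρ t, hf'.2 ρ t]⟩
  exact sub_eq_zero.1 (foulkesMap_injective hb hsub (by rw [map_sub, he, sub_self]))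

end Vale.Agent.Results.P181.LargeInnerDegree
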